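import Vale.Agent.P155Z.Sk
import Vale.Agent.P155.V743.XB

/-!
# P155, block LM, part A: sums over the members, measurability
-/

namespace Vale.Agent.P155.Tree.LMA

open MeasureTheory Filter Topology Set Vale.Agent.P155 Vale.Agent.P155.Q1 Vale.Agent.P155.V743

/-- a class of functions containing the continuous ones, stable under linear operations and
pointwise limits, contains the Borel functions -/
theorem baire {X : Type} [PseudoMetricSpace X] [MeasurableSpace X] [BorelSpace X]
    (P : (X → ℝ) → Prop) (hc : ∀ f, Continuous f → P f)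
    (hadd : ∀ f g, P f → P g → P (f + g)) (hsm : ∀ (c : ℝ) f, P f → P (c • f))
    (hlim : ∀ (F : ℕ → X → ℝ) f, (∀ n, P (F n)) →
      (∀ x, Tendsto (fun n => F n x) atTop (𝓝 (f x))) → P f) :
    ∀ f, Measurable f → P f := by
  have h0 : P 0 := hc _ continuous_const
  have hsum : ∀ (F : ℕ → X → ℝ), (∀ n, P (F n)) → ∀ n, P (∑ i ∈ Finset.range n, F i) := by
    intro F hF n
    induction n with
    | zero => simpa using h0
    | succ n ih =>
      rw [Finset.sum_range_succ]
      exact hadd _ _ ih (hF n)
  have hind : ∀ s : Set X, MeasurableSet s → P (s.indicator fun _ => 1) := by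
    intro s hs
    have hb : (inferInstance : MeasurableSpace X) = MeasurableSpace.generateFrom {s | IsClosed s} := by
      rw [BorelSpace.measurable_eq (α := X), borel_eq_generateFrom_isClosed]
    induction s, hs using MeasurableSpace.induction_on_inter hb isPiSystem_isClosed with
    | empty =>
      rw [indicator_empty]
      exact h0
    | basic t ht =>
      have ht' : IsClosed t := ht
      refine hlim (fun n x => (ht'.apprSeq n x : ℝ)) _ (fun n => hc _ ?_) fun x => ?_
      · exact NNReal.continuous_coe.comp (ht'.apprSeq n).continuous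
      · have h1 := tendsto_pi_nhds.1 (HasOuterApproxClosed.tendsto_apprSeq ht') x
        have h2 := (NNReal.continuous_coe.tendsto _).comp h1
        have e : ((t.indicator (fun _ => (1 : NNReal)) x : NNReal) : ℝ) =
            t.indicator (fun _ => (1 : ℝ)) x := by
          by_cases hx : x ∈ t <;> simp [hx]
        rw [e] at h2
        exact h2
    | compl t _ ih =>
      have e : (tᶜ.indicator fun _ => (1 : ℝ)) =
          (fun _ => (1 : ℝ)) + (-1 : ℝ) • t.indicator fun _ => (1 : ℝ) := by
        funext x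
        by_cases hx : x ∈ t <;> simp [hx]
      rw [e]
      exact hadd _ _ (hc _ continuous_const) (hsm _ _ ih)
    | iUnion f hd _ ih =>
      refine hlim (fun n => ∑ i ∈ Finset.range n, (f i).indicator fun _ => (1 : ℝ)) _
        (hsum _ ih) fun x => ?_
      by_cases hx : x ∈ ⋃ i, f i
      · obtain ⟨j, hj⟩ := mem_iUnion.1 hx
        rw [indicator_of_mem hx]
        refine tendsto_const_nhds.congr' ?_
        filter_upwards [eventually_gt_atTop j] with n hn
        rw [Finset.sum_apply, Finset.sum_eq_single j]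
        · rw [indicator_of_mem hj]
        · intro i _ hij
          refine indicator_of_notMem (fun hi => ?_) _
          exact Set.disjoint_left.1 (hd hij) hi hj
        · intro h
          exact absurd (Finset.mem_range.2 hn) h
      · rw [indicator_of_notMem hx]
        refine tendsto_const_nhds.congr fun n => ?_
        rw [Finset.sum_apply]
        refine (Finset.sum_eq_zero fun i _ => indicator_of_notMem (fun hi => hx ?_) _).symm
        exact mem_iUnion.2 ⟨i, hi⟩
  intro f hf
  refine StronglyMeasurable.induction (P := fun f _ => P f) ?_ ?_ ?_ f hf.stronglyMeasurable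
  · intro c s hs
    have e : (s.indicator fun _ => c) = c • s.indicator fun _ => (1 : ℝ) := by
      funext x
      by_cases hx : x ∈ s <;> simp [hx]
    rw [e]
    exact hsm _ _ (hind s hs)
  · intro f g _ _ _ _ h1 h2
    exact hadd _ _ h1 h2
  · intro F g _ _ h1 h2
    exact hlim F g h1 h2

/-- the members of diameter `> e` -/
noncomputable def big (Γ : LoopColl) (e : ℝ) : Finset Γ.Inst :=
  if he : 0 < e then (big_fin Γ he).toFinset else ∅

theorem mem_big {Γ : LoopColl} {e : ℝ} (he : 0 < e) (x : Γ.Inst) :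
    x ∈ big Γ e ↔ e < x.1.diam := by
  unfold big
  rw [dif_pos he]
  simp

/-- the two forms of the sum over the members -/
theorem sm_eq {f : Loop → ℝ} {e : ℝ} (he : 0 < e) (h0 : ∀ γ : Loop, γ.diam ≤ e → f γ = 0)
    (Γ : LoopColl) : sm f Γ = sumI f Γ := by
  classical
  have hfin := Γ.fin e he
  obtain ⟨A, hA⟩ : ∃ A : Finset Loop, ∀ γ, γ ∈ A ↔ Γ.mult γ ≠ 0 ∧ e < γ.diam :=
    ⟨hfin.toFinset, fun γ => by simp⟩
  have h1 : sm f Γ = ∑ γ ∈ A, (Γ.mult γ : ℝ) * f γ := by
    unfold sm
    refine finsum_eq_sum_of_support_subset _ fun γ hγ => ?_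
    rw [Function.mem_support] at hγ
    rw [Finset.mem_coe, hA]
    constructor
    · intro h
      rw [h] at hγ
      simp at hγ
    · by_contra h
      rw [h0 γ (not_lt.1 h), mul_zero] at hγ
      exact hγ rfl
  have h2 : sumI f Γ = ∑ x ∈ A.sigma (fun γ => (Finset.univ : Finset (Fin (Γ.mult γ)))), f x.1 := by
    refine sumI_eq Γ fun x hx => ?_
    rw [Finset.mem_sigma, hA]
    refine ⟨⟨fun h => ?_, ?_⟩, Finset.mem_univ _⟩
    · have := x.2.isLt
      omega
    · by_contra h
      exact hx (h0 _ (not_lt.1 h))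
  rw [h1, h2, Finset.sum_sigma]
  refine Finset.sum_congr rfl fun γ _ => ?_
  show _ = ∑ _s : Fin (Γ.mult γ), f γ
  rw [Finset.sum_const, Finset.card_univ, Fintype.card_fin, nsmul_eq_mul]

theorem sm_big {f : Loop → ℝ} {e : ℝ} (he : 0 < e) (h0 : ∀ γ : Loop, γ.diam ≤ e → f γ = 0)
    (Γ : LoopColl) : sm f Γ = ∑ x ∈ big Γ e, f x.1 := by
  rw [sm_eq he h0]
  refine sumI_eq Γ fun x hx => ?_
  rw [mem_big he]
  by_contra h
  exact hx (h0 _ (not_lt.1 h))

theorem sm_continuous {f : Loop → ℝ} (hf : Continuous f) {e : ℝ} (he : 0 < e)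
    (h0 : ∀ γ : Loop, γ.diam ≤ e → f γ = 0) : Continuous (sm f) := by
  have : sm f = sumI f := funext fun Γ => sm_eq he h0 Γ
  rw [this]
  exact sumI_continuous hf he h0

/-- **the sums of Borel functions are measurable** -/
theorem sm_measurable {g : Loop → ℝ} (hg : Obs g) : Measurable (sm g) := by
  obtain ⟨hm, η, hη, h0⟩ := hg
  let : MeasurableSpace Loop := borel Loop
  have : BorelSpace Loop := ⟨rfl⟩
  have hη2 : 0 < η / 2 := half_pos hη
  have key := baire (X := Loop)
    (fun f => Measurable fun Γ : LoopColl => ∑ x ∈ big Γ (η / 2), f x.1 * bigf η x.1)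
    (fun f hf => by
      have h1 : ∀ γ : Loop, γ.diam ≤ η / 2 → f γ * bigf η γ = 0 := fun γ h => by
        rw [bigf_zero hη h, mul_zero]
      have h2 := sm_continuous (f := fun γ => f γ * bigf η γ) (hf.mul (bigf_continuous η)) hη2 h1
      have e : (fun Γ : LoopColl => ∑ x ∈ big Γ (η / 2), f x.1 * bigf η x.1) =
          sm fun γ => f γ * bigf η γ := funext fun Γ => (sm_big hη2 h1 Γ).symm
      rw [e]
      exact h2.measurable)
    (fun f g hf hg => by
      have e : (fun Γ : LoopColl => ∑ x ∈ big Γ (η / 2), (f + g) x.1 * bigf η x.1) =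
          fun Γ : LoopColl => ∑ x ∈ big Γ (η / 2), f x.1 * bigf η x.1 +
            ∑ x ∈ big Γ (η / 2), g x.1 * bigf η x.1 := by
        funext Γ
        rw [← Finset.sum_add_distrib]
        exact Finset.sum_congr rfl fun x _ => by rw [Pi.add_apply, add_mul]
      rw [e]
      exact hf.add hg)
    (fun c f hf => by
      have e : (fun Γ : LoopColl => ∑ x ∈ big Γ (η / 2), (c • f) x.1 * bigf η x.1) =
          fun Γ : LoopColl => c * ∑ x ∈ big Γ (η / 2), f x.1 * bigf η x.1 := by
        funext Γ
        rw [Finset.mul_sum]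
        exact Finset.sum_congr rfl fun x _ => by rw [Pi.smul_apply, smul_eq_mul, mul_assoc]
      rw [e]
      exact hf.const_mul c)
    (fun F f hF hl => by
      refine measurable_of_tendsto_metrizable hF (tendsto_pi_nhds.2 fun Γ => ?_)
      exact tendsto_finsetSum _ fun x _ => (hl x.1).mul_const _)
    g hm
  have e : sm g = fun Γ : LoopColl => ∑ x ∈ big Γ (η / 2), g x.1 * bigf η x.1 := by
    funext Γ
    rw [sm_big hη2 (fun γ h => h0 γ (by linarith))]
    refine Finset.sum_congr rfl fun x _ => ?_
    by_cases h : x.1.diam ≤ η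
    · rw [h0 _ h, zero_mul]
    · rw [bigf_one hη (not_le.1 h).le, mul_one]
  rw [e]
  exact key

/-- the open sets of loops lying in an open set -/
theorem lin_open {V : Set ℂ} (hV : IsOpen V) : IsOpen {l : Loop | NCLE.LIn l V} := by
  rw [Metric.isOpen_iff]
  intro l hl
  obtain ⟨γ, rfl⟩ := SeparationQuotient.surjective_mk l
  obtain ⟨δ, hδ, hs⟩ := (isCompact_rng γ).exists_thickening_subset_open hV (hl γ rfl)
  refine ⟨δ, hδ, fun l' hl' γ' h => ?_⟩
  subst h
  rw [Metric.mem_ball, SeparationQuotient.dist_mk, dist_comm, dist_def] at hl'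
  obtain ⟨φ, hφ⟩ := exists_lt hl'
  rintro _ ⟨t, rfl⟩
  apply hs
  rw [Metric.mem_thickening_iff]
  refine ⟨γ.c (φ.symm t), ⟨_, rfl⟩, ?_⟩
  have h1 : dist (γ.c (φ.symm t)) (γ'.c (φ (φ.symm t))) ≤
      dist γ.c (γ'.c.comp (φ : C(S1, S1))) :=
    ContinuousMap.dist_apply_le_dist (f := γ.c) (g := γ'.c.comp (φ : C(S1, S1))) (φ.symm t)
  rw [Homeomorph.apply_symm_apply] at h1
  rw [dist_comm]
  exact h1.trans_lt hφ

instance : TopologicalSpace.SeparableSpace Loop := by
  have hc : Continuous fun c : C(S1, ℂ) => (SeparationQuotient.mk (⟨c⟩ : PL) : Loop) := by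
    refine LipschitzWith.continuous (K := 1) (LipschitzWith.of_dist_le_mul fun c c' => ?_)
    rw [SeparationQuotient.dist_mk, dist_def]
    simpa using ldist_le_dist ⟨c⟩ ⟨c'⟩
  refine DenseRange.separableSpace (Function.Surjective.denseRange fun l => ?_) hc
  obtain ⟨γ, rfl⟩ := SeparationQuotient.surjective_mk l
  exact ⟨γ.c, rfl⟩

end Vale.Agent.P155.Tree.LMA
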