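import Vale.Agent.P155Z.LM.A

/-!
# P155, block LM, part B: the topology is generated by the sums
-/

namespace Vale.Agent.P155.Tree.LMA

open MeasureTheory Filter Topology Set Vale.Agent.P155 Vale.Agent.P155.Q1 Vale.Agent.P155.V743

/-- closeness from equal counts -/
theorem close_of_count {ι : Type} {Γ Γ' : LoopColl} {ε : ℝ} (S : ι → Finset Γ.Inst)
    (S' : ι → Finset Γ'.Inst) (hS : ∀ i j x, x ∈ S i → x ∈ S j → i = j)
    (hS' : ∀ i j y, y ∈ S' i → y ∈ S' j → i = j) (hc : ∀ i, (S i).card = (S' i).card)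
    (hd : ∀ i, ∀ x ∈ S i, ∀ y ∈ S' i, dist x.1 y.1 ≤ ε)
    (h1 : ∀ x : Γ.Inst, ε < x.1.diam → ∃ i, x ∈ S i)
    (h2 : ∀ y : Γ'.Inst, ε < y.1.diam → ∃ i, y ∈ S' i) : close ε Γ Γ' := by
  have e : ∀ i, S i ≃ S' i := fun i => Finset.equivOfCardEq (hc i)
  refine ⟨fun x y => ∃ (i : ι) (hx : x ∈ S i) (hy : y ∈ S' i), e i ⟨x, hx⟩ = ⟨y, hy⟩,
    ?_, ?_, ?_, ?_, ?_⟩
  · rintro x y y' ⟨i, hx, hy, h⟩ ⟨j, hx', hy', h'⟩
    obtain rfl := hS i j x hx hx'
    exact congrArg Subtype.val (h.symm.trans h')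
  · rintro x x' y ⟨i, hx, hy, h⟩ ⟨j, hx', hy', h'⟩
    obtain rfl := hS' i j y hy hy'
    exact congrArg Subtype.val ((e i).injective (h.trans h'.symm))
  · intro x hx
    obtain ⟨i, hi⟩ := h1 x hx
    exact ⟨(e i ⟨x, hi⟩).1, i, hi, (e i ⟨x, hi⟩).2, rfl⟩
  · intro y hy
    obtain ⟨i, hi⟩ := h2 y hy
    exact ⟨((e i).symm ⟨y, hi⟩).1, i, ((e i).symm ⟨y, hi⟩).2, hi, (e i).apply_symm_apply _⟩
  · rintro x y ⟨i, hx, hy, -⟩
    exact hd i x hx y hy

/-- a bump: `1` at distance `≤ r` of `l`, `0` at distance `≥ 2 r` -/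
noncomputable def bump (l : Loop) (r : ℝ) (γ : Loop) : ℝ := min 1 (max 0 (2 - dist γ l / r))

theorem bump_continuous (l : Loop) (r : ℝ) : Continuous (bump l r) := by
  unfold bump
  fun_prop

theorem bump_nonneg (l : Loop) (r : ℝ) (γ : Loop) : 0 ≤ bump l r γ :=
  le_min zero_le_one (le_max_left _ _)

theorem bump_le_one (l : Loop) (r : ℝ) (γ : Loop) : bump l r γ ≤ 1 := min_le_left _ _

theorem bump_zero {l : Loop} {r : ℝ} (hr : 0 < r) {γ : Loop} (h : 2 * r ≤ dist γ l) :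
    bump l r γ = 0 := by
  unfold bump
  have : 2 - dist γ l / r ≤ 0 := by
    rw [sub_nonpos, le_div_iff₀ hr]
    exact h
  rw [max_eq_left this]
  norm_num

theorem bump_one {l : Loop} {r : ℝ} (hr : 0 < r) {γ : Loop} (h : dist γ l ≤ r) :
    bump l r γ = 1 := by
  unfold bump
  have : 1 ≤ 2 - dist γ l / r := by
    have : dist γ l / r ≤ 1 := by
      rw [div_le_one hr]
      exact h
    linarith
  rw [min_eq_left (this.trans (le_max_right _ _))]

/-- the points of a finite set are uniformly separated -/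
theorem exists_sep {A : Set Loop} (hA : A.Finite) {c : ℝ} (hc : 0 < c) :
    ∃ r : ℝ, 0 < r ∧ r ≤ c ∧ ∀ l ∈ A, ∀ l' ∈ A, l ≠ l' → 8 * r ≤ dist l l' := by
  have h1 : ∀ p ∈ A ×ˢ A, ∀ᶠ r in 𝓝[>] (0 : ℝ), p.1 ≠ p.2 → 8 * r ≤ dist p.1 p.2 := by
    intro p _
    by_cases h : p.1 = p.2
    · exact Eventually.of_forall fun r h' => absurd h h'
    · have hd : 0 < dist p.1 p.2 / 8 := div_pos (dist_pos.2 h) (by norm_num)
      filter_upwards [Ioo_mem_nhdsGT hd] with r hr _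
      have := hr.2
      linarith
  have h2 := (eventually_all_finite (hA.prod hA)).2 h1
  obtain ⟨r, ⟨hr, h3⟩, h4⟩ := ((h2.and (Ioo_mem_nhdsGT hc)).and self_mem_nhdsWithin).exists
  exact ⟨r, h4, h3.2.le, fun l hl l' hl' => hr (l, l') ⟨hl, hl'⟩⟩

theorem mult_ne {Γ : LoopColl} (x : Γ.Inst) : Γ.mult x.1 ≠ 0 := by
  have := x.2.isLt
  omega

/-- **neighbourhoods given by finitely many sums** -/
theorem exists_W (Γ : LoopColl) {ε : ℝ} (hε : 0 < ε) : ∃ s : Set (Loop → ℝ), s.Finite ∧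
    (∀ g ∈ s, Continuous g ∧ ∀ l : Loop, l.diam ≤ ε / 4 → g l = 0) ∧
    ∀ Γ', (∀ g ∈ s, |sm g Γ' - sm g Γ| < 1) → close ε Γ Γ' := by
  classical
  have hη : 0 < ε / 4 := by positivity
  obtain ⟨r, hr, hrε, hsep⟩ := exists_sep (Γ.fin (ε / 4) hη) (show 0 < ε / 40 by positivity)
  obtain ⟨A, hA⟩ : ∃ A : Finset Loop, ∀ γ, γ ∈ A ↔ Γ.mult γ ≠ 0 ∧ ε / 2 < γ.diam :=
    ⟨(Γ.fin (ε / 2) (by positivity)).toFinset, fun γ => by simp⟩
  have hfar : ∀ l ∈ A, ∀ γ : Loop, γ.diam ≤ ε / 4 → 4 * r ≤ dist γ l := by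
    intro l hl γ hγ
    have h1 := Loop.diam_le l γ
    have h2 := ((hA l).1 hl).2
    rw [dist_comm] at h1
    linarith
  have hz1 : ∀ l ∈ A, ∀ γ : Loop, γ.diam ≤ ε / 4 → bump l r γ = 0 := fun l hl γ hγ =>
    bump_zero hr (by linarith [hfar l hl γ hγ])
  have hz2 : ∀ l ∈ A, ∀ γ : Loop, γ.diam ≤ ε / 4 → bump l (2 * r) γ = 0 := fun l hl γ hγ =>
    bump_zero (by positivity) (by linarith [hfar l hl γ hγ])
  obtain ⟨g0, hg0⟩ : ∃ g0 : Loop → ℝ, g0 = fun γ => bigf ε γ * ∏ l ∈ A, (1 - bump l r γ) :=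
    ⟨_, rfl⟩
  have hz0 : ∀ γ : Loop, γ.diam ≤ ε / 4 → g0 γ = 0 := fun γ hγ => by
    rw [hg0]
    show bigf ε γ * _ = 0
    rw [bigf_zero hε (by linarith), zero_mul]
  have hg0n : ∀ γ, 0 ≤ g0 γ := fun γ => by
    rw [hg0]
    exact mul_nonneg (bigf_nonneg _ _)
      (Finset.prod_nonneg fun l _ => sub_nonneg.2 (bump_le_one _ _ _))
  refine ⟨insert g0 ((fun l => bump l r) '' A ∪ (fun l => bump l (2 * r)) '' A), ?_, ?_, ?_⟩
  · exact ((A.finite_toSet.image _).union (A.finite_toSet.image _)).insert _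
  · rintro g (rfl | ⟨l, hl, rfl⟩ | ⟨l, hl, rfl⟩)
    · refine ⟨?_, hz0⟩
      rw [hg0]
      exact (bigf_continuous ε).mul
        (continuous_finsetProd _ fun l _ => continuous_const.sub (bump_continuous l r))
    · exact ⟨bump_continuous _ _, hz1 l hl⟩
    · exact ⟨bump_continuous _ _, hz2 l hl⟩
  intro Γ' hW
  -- the members near `l`
  obtain ⟨S, hS⟩ : ∃ S : ∀ (Δ : LoopColl), Loop → Finset Δ.Inst,
      ∀ Δ l, S Δ l = (big Δ (ε / 4)).filter fun x => dist x.1 l ≤ 2 * r := ⟨_, fun _ _ => rfl⟩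
  have hlow : ∀ Δ : LoopColl, ∀ l ∈ A, sm (bump l r) Δ ≤ (S Δ l).card := by
    intro Δ l hl
    rw [sm_big hη (hz1 l hl), hS, Finset.card_filter, Nat.cast_sum]
    refine Finset.sum_le_sum fun x _ => ?_
    split_ifs with h
    · rw [Nat.cast_one]
      exact bump_le_one _ _ _
    · rw [bump_zero hr (not_le.1 h).le, Nat.cast_zero]
  have hup : ∀ Δ : LoopColl, ∀ l ∈ A, ((S Δ l).card : ℝ) ≤ sm (bump l (2 * r)) Δ := by
    intro Δ l hl
    rw [sm_big hη (hz2 l hl), hS, Finset.card_filter, Nat.cast_sum]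
    refine Finset.sum_le_sum fun x _ => ?_
    split_ifs with h
    · rw [Nat.cast_one, bump_one (by positivity) h]
    · rw [Nat.cast_zero]
      exact bump_nonneg _ _ _
  have heq : ∀ l ∈ A, sm (bump l (2 * r)) Γ = sm (bump l r) Γ := by
    intro l hl
    rw [sm_big hη (hz1 l hl), sm_big hη (hz2 l hl)]
    refine Finset.sum_congr rfl fun x hx => ?_
    by_cases h : x.1 = l
    · have : dist x.1 l = 0 := dist_eq_zero.2 h
      rw [bump_one (by positivity) (by linarith), bump_one hr (by linarith)]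
    · have h1 := hsep x.1 ⟨mult_ne x, (mem_big hη x).1 hx⟩ l
        ⟨((hA l).1 hl).1, by linarith [((hA l).1 hl).2]⟩ h
      rw [bump_zero (by positivity) (by linarith), bump_zero hr (by linarith)]
  have hdis : ∀ (Δ : LoopColl) (i j : A) (x : Δ.Inst), x ∈ S Δ i → x ∈ S Δ j → i = j := by
    intro Δ i j x hi hj
    rw [hS, Finset.mem_filter] at hi hj
    by_contra hne
    have h1 := hsep i.1 ⟨((hA _).1 i.2).1, by linarith [((hA _).1 i.2).2]⟩ j.1
      ⟨((hA _).1 j.2).1, by linarith [((hA _).1 j.2).2]⟩ (fun h => hne (Subtype.ext h))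
    have h2 := dist_triangle_left i.1 j.1 x.1
    linarith [hi.2, hj.2]
  refine close_of_count (ι := A) (fun i => S Γ i) (fun i => S Γ' i) (hdis Γ) (hdis Γ') ?_ ?_ ?_ ?_
  · intro i
    have a1 := abs_lt.1 (hW (bump i r) (Or.inr (Or.inl ⟨i, i.2, rfl⟩)))
    have a2 := abs_lt.1 (hW (bump i (2 * r)) (Or.inr (Or.inr ⟨i, i.2, rfl⟩)))
    have a3 := hlow Γ i i.2
    have a4 := hup Γ i i.2
    have a5 := hlow Γ' i i.2
    have a6 := hup Γ' i i.2
    have a7 := heq i i.2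
    have b1 : ((S Γ i).card : ℝ) < (S Γ' i).card + 1 := by linarith [a1.1]
    have b2 : ((S Γ' i).card : ℝ) < (S Γ i).card + 1 := by linarith [a2.2]
    have c1 : (S Γ i).card < (S Γ' i).card + 1 := by exact_mod_cast b1
    have c2 : (S Γ' i).card < (S Γ i).card + 1 := by exact_mod_cast b2
    show (S Γ i).card = (S Γ' i).card
    omega
  · intro i x hx y hy
    rw [hS, Finset.mem_filter] at hx hy
    have := dist_triangle_right x.1 y.1 i.1
    linarith [hx.2, hy.2]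
  · intro x hx
    refine ⟨⟨x.1, (hA _).2 ⟨mult_ne x, by linarith⟩⟩, ?_⟩
    show x ∈ S Γ x.1
    rw [hS, Finset.mem_filter, mem_big hη, dist_self]
    exact ⟨by linarith, by positivity⟩
  · intro y hy
    by_contra hno
    have hyb : y ∈ big Γ' (ε / 4) := (mem_big hη y).2 (by linarith)
    have h1 : g0 y.1 = 1 := by
      rw [hg0]
      show bigf ε y.1 * _ = 1
      rw [bigf_one hε hy.le, one_mul]
      refine Finset.prod_eq_one fun l hl => ?_
      rw [bump_zero hr, sub_zero]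
      by_contra h
      refine hno ⟨⟨l, hl⟩, ?_⟩
      show y ∈ S Γ' l
      rw [hS, Finset.mem_filter]
      exact ⟨hyb, (not_le.1 h).le⟩
    have h2 : sm g0 Γ = 0 := by
      rw [sm_big hη hz0]
      refine Finset.sum_eq_zero fun x _ => ?_
      rw [hg0]
      show bigf ε x.1 * _ = 0
      by_cases h : x.1.diam ≤ ε / 2
      · rw [bigf_zero hε h, zero_mul]
      · rw [Finset.prod_eq_zero ((hA x.1).2 ⟨mult_ne x, not_le.1 h⟩), mul_zero]
        rw [bump_one hr (by rw [dist_self]; exact hr.le), sub_self]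
    have h3 : g0 y.1 ≤ sm g0 Γ' := by
      rw [sm_big hη hz0]
      exact Finset.single_le_sum (f := fun x : Γ'.Inst => g0 x.1) (fun x _ => hg0n x.1) hyb
    have h4 := abs_lt.1 (hW g0 (Or.inl rfl))
    linarith [h4.2]

/-- the multiplicity is a sum -/
theorem t2 : T2Space LoopColl := by
  classical
  refine ⟨fun Γ Γ' hne => ?_⟩
  obtain ⟨l, hl⟩ : ∃ l, Γ.mult l ≠ Γ'.mult l := by
    by_contra h
    push Not at h
    exact hne (LoopColl.ext (funext h))
  have hd : 0 < l.diam := by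
    by_cases h : Γ.mult l = 0
    · exact Γ'.nonconst l fun h' => hl (h.trans h'.symm)
    · exact Γ.nonconst l h
  have hη : 0 < l.diam / 2 := half_pos hd
  obtain ⟨r, hr, hrd, hsep⟩ := exists_sep
    (((Γ.fin _ hη).union (Γ'.fin _ hη)).insert l) (show 0 < l.diam / 8 by positivity)
  have hz : ∀ γ : Loop, γ.diam ≤ l.diam / 2 → bump l r γ = 0 := by
    intro γ hγ
    have h1 := Loop.diam_le l γ
    rw [dist_comm] at h1
    exact bump_zero hr (by linarith)
  have key : ∀ Δ : LoopColl, (∀ γ, Δ.mult γ ≠ 0 → l.diam / 2 < γ.diam → γ ≠ l → 8 * r ≤ dist γ l) →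
      sm (bump l r) Δ = Δ.mult l := by
    intro Δ h
    unfold sm
    rw [finsum_eq_single _ l, bump_one hr (by rw [dist_self]; exact hr.le), mul_one]
    intro γ hγ
    by_cases h1 : Δ.mult γ = 0
    · rw [h1, Nat.cast_zero, zero_mul]
    by_cases h2 : γ.diam ≤ l.diam / 2
    · rw [hz γ h2, mul_zero]
    · have := h γ h1 (not_le.1 h2) hγ
      rw [bump_zero hr (by linarith), mul_zero]
  have k1 := key Γ fun γ h1 h2 h3 =>
    hsep γ (Or.inr (Or.inl ⟨h1, h2⟩)) l (Or.inl rfl) h3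
  have k2 := key Γ' fun γ h1 h2 h3 =>
    hsep γ (Or.inr (Or.inr ⟨h1, h2⟩)) l (Or.inl rfl) h3
  refine separated_by_continuous (sm_continuous (bump_continuous l r) hη hz) ?_
  rw [k1, k2]
  exact_mod_cast hl

end Vale.Agent.P155.Tree.LMA
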